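import Vale.Agent.P284.H287.AE.AE1aF
import Vale.Agent.P284.H427.G11
import Vale.Agent.P284.H622.G8
import Vale.Agent.P284.H446.GI

/-!
# P284, theorem TAN (helper446): bounded plurisubharmonic functions on a covering are constant if at
almost every point the velocities of entire curves span the tangent space; growth of `π₁`.
-/

open scoped Manifold ContDiff Topology Pointwise
open Filter Set Metric Function MeasureTheory

noncomputable section

namespace Vale.Agent.P284.H446.TAN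

open Vale.Agent.P272.K Vale.Agent.P284.H248 Vale.Agent.P284.H894 Vale.Agent.P284.H894.G
  Vale.Agent.P284.H894.V Vale.Agent.P284.H894.W Vale.Agent.P284.H913.V Vale.Agent.P284.H409.A
  Vale.Agent.P284.H409.K Vale.Agent.P284.H622 Vale.Agent.P284.H894.F Vale.Agent.P284.H446.K
  Vale.Agent.P284.H894.AE Vale.Agent.P284.H427

/-- The velocities at `x`, in the preferred chart at `x`, of the entire curves through `x`. -/
def velocities (n : ℕ) {X : Type} [TopologicalSpace X] [ChartedSpace (Cm n) X] (x : X) :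
    Set (Cm n) :=
  {v | ∃ f : ℂ → X, ContMDiff 𝓘(ℂ) 𝓘(ℂ, Cm n) ω f ∧ f 0 = x ∧
    ∀ k, deriv (fun s => chartAt (Cm n) x (f s) k) 0 = v k}

/-- The local statement. -/
def TanLoc : Prop :=
  ∀ (n : ℕ) (v : Cm n → ℝ), (∃ B : ℝ, ∀ z, |v z| ≤ B) →
    (∀ z ∈ ball (0 : Cm n) 1, UpperSemicontinuousAt v z) →
    (∀ (c b : Cm n) (ρ : ℝ), 0 < ρ →
      (∀ ζ ∈ closedBall (0 : ℂ) ρ, c + ζ • b ∈ ball (0 : Cm n) 1) →
      v c ≤ Real.circleAverage (fun ζ : ℂ => v (c + ζ • b)) 0 ρ) →
    (∀ᵐ x : Cm n, x ∈ ball (0 : Cm n) 1 → ∃ S : Set (Cm n), Submodule.span ℂ S = ⊤ ∧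
      ∀ a ∈ S, ∃ f : ℂ → Cm n, HasDerivAt f a 0 ∧ f 0 = x ∧
        ∀ᶠ t in 𝓝 (0 : ℂ), v (f t) = v x) →
    ∃ r > 0, ∀ z ∈ ball (0 : Cm n) r, v z = v 0

section
variable {n : ℕ} {X : Type} [TopologicalSpace X] [ChartedSpace (Cm n) X]
  [IsManifold 𝓘(ℂ, Cm n) ω X]

/-- the velocities in another chart -/
theorem vel_change {x : X} {e : Chart n X} (he : At e x) {f : ℂ → X}
    (hf : ContMDiff 𝓘(ℂ) 𝓘(ℂ, Cm n) ω f) (h0 : f 0 = x) {v : Cm n}
    (hv : ∀ k, deriv (fun s => chartAt (Cm n) x (f s) k) 0 = v k) :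
    v = fderiv ℂ (fun z => chartAt (Cm n) x (e.symm z)) (e x) (deriv (fun s => e (f s)) 0) := by
  have hAt : At (chartAt (Cm n) x) (f 0) := by
    rw [h0]; exact ⟨chart_mem_atlas _ _, mem_chart_source _ _⟩
  have he' : At e (f 0) := by rw [h0]; exact he
  have hdc : DifferentiableAt ℂ (fun s => chartAt (Cm n) x (f s)) 0 :=
    (contDiffAt_chart (hf 0) hAt).differentiableAt (by simp)
  have h1 : deriv (fun s => chartAt (Cm n) x (f s)) 0 = v := by
    funext k
    rw [← hv k]
    exact ((hasDerivAt_pi.1 hdc.hasDerivAt) k).deriv.symm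
  have hd1 : DifferentiableAt ℂ (fun s => e (f s)) 0 :=
    (contDiffAt_chart (hf 0) he').differentiableAt (by simp)
  have hd2 := transition_differentiableAt he' hAt
  have h2 : (fun s => chartAt (Cm n) x (f s)) =ᶠ[𝓝 0]
      fun s => chartAt (Cm n) x (e.symm (e (f s))) := by
    filter_upwards [hf.continuous.continuousAt.eventually_mem (e.open_source.mem_nhds he'.2)]
      with s hs
    rw [e.left_inv hs]
  have h3 : HasDerivAt (fun s => chartAt (Cm n) x (e.symm (e (f s))))
      (fderiv ℂ (fun z => chartAt (Cm n) x (e.symm z)) (e (f 0)) (deriv (fun s => e (f s)) 0)) 0 :=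
    HasFDerivAt.comp_hasDerivAt (l := fun z => chartAt (Cm n) x (e.symm z))
      (f := fun s => e (f s)) 0 hd2.hasFDerivAt hd1.hasDerivAt
  rw [← h1, h2.deriv_eq, h3.deriv, h0]

theorem span_change {x : X} {e : Chart n X} (he : At e x)
    (h : Submodule.span ℂ (velocities n x) = ⊤) :
    Submodule.span ℂ {v' : Cm n | ∃ f : ℂ → X, ContMDiff 𝓘(ℂ) 𝓘(ℂ, Cm n) ω f ∧ f 0 = x ∧
      v' = deriv (fun s => e (f s)) 0} = ⊤ := by
  set D := {v' : Cm n | ∃ f : ℂ → X, ContMDiff 𝓘(ℂ) 𝓘(ℂ, Cm n) ω f ∧ f 0 = x ∧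
      v' = deriv (fun s => e (f s)) 0}
  set T := (fderiv ℂ (fun z => chartAt (Cm n) x (e.symm z)) (e x)).toLinearMap
  have h1 : (⊤ : Submodule ℂ (Cm n)) ≤ (Submodule.span ℂ D).map T := by
    rw [← h, Submodule.span_le]
    rintro v ⟨f, hf, h0, hv⟩
    exact ⟨_, Submodule.subset_span ⟨f, hf, h0, rfl⟩, (vel_change he hf h0 hv).symm⟩
  have h2 := Submodule.finrank_mono h1
  have h3 := Submodule.finrank_map_le T (Submodule.span ℂ D)
  exact Submodule.eq_top_of_finrank_eq (le_antisymm (Submodule.finrank_le _) (by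
    rw [finrank_top] at h2
    exact h2.trans h3))

end

section
variable {n : ℕ} {X : Type} [TopologicalSpace X] [ChartedSpace (Cm n) X]
  [IsManifold 𝓘(ℂ, Cm n) ω X] {E : Type} [TopologicalSpace E] {p : E → X}

/-- `u` on an affine disc of a chart -/
theorem sub_affine {u : E → ℝ} (hu : IsPsh (n := n) p u) {B : ℝ} (hB : ∀ y, |u y| ≤ B)
    {h : OpenPartialHomeomorph E X} (hp : p = h) {e : Chart n X} (he : e ∈ atlas (Cm n) X)
    {a w : Cm n} (hin : ∀ t ∈ ball (0 : ℂ) 1, a + t • w ∈ e.target ∩ e.symm ⁻¹' h.target) :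
    Sub (fun t : ℂ => u (h.symm (e.symm (a + t • w)))) := by
  have hcont : ∀ t ∈ ball (0 : ℂ) 1,
      ContinuousAt (fun t : ℂ => h.symm (e.symm (a + t • w))) t := by
    intro t ht
    have h1 := hin t ht
    refine ContinuousAt.comp (f := fun t : ℂ => e.symm (a + t • w)) (g := h.symm)
      (h.continuousAt_symm h1.2) ?_
    exact ContinuousAt.comp (f := fun t : ℂ => a + t • w) (g := e.symm)
      (e.continuousAt_symm h1.1) (by fun_prop)
  refine ⟨fun t ht => UpperSemicontinuousAt.comp (f := u)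
    (g := fun t : ℂ => h.symm (e.symm (a + t • w))) (hu.usc _) (hcont t ht),
    ⟨B, fun t => hB _⟩, ?_⟩
  intro a' ha
  have ha' : ‖a'‖ < 1 := by simpa using ha
  set κ : ℝ := 1 - ‖a'‖ with hκ
  have hκ0 : 0 < κ := by linarith
  have hin' : ∀ t ∈ ball (0 : ℂ) 1, a' + t * κ ∈ ball (0 : ℂ) 1 := by
    intro t ht
    rw [mem_ball, dist_zero_right] at ht ⊢
    have h1 := norm_add_le a' (t * κ)
    rw [norm_mul, Complex.norm_real, Real.norm_eq_abs, abs_of_pos hκ0] at h1
    nlinarith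
  have hd := isDisc_affine (n := n) hp he (a := a + a' • w) (b := (κ : ℂ) • w) (by
    intro t ht
    have h1 := hin _ (hin' t ht)
    rw [show a + (a' + t * κ) • w = a + a' • w + t • (κ : ℂ) • w by
      rw [add_smul, mul_smul, add_assoc]] at h1
    exact h1)
  obtain ⟨δ, hδ, hm⟩ := hu.mean _ hd
  refine ⟨δ * κ, mul_pos hδ hκ0, fun ρ hρ => ?_⟩
  have h2 := hm (ρ / κ) ⟨div_pos hρ.1 hκ0, (div_lt_iff₀ hκ0).2 hρ.2⟩
  rw [circleAverage_scale _ _ hκ0.ne']
  simp only [zero_smul, add_zero] at h2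
  refine h2.trans_eq ?_
  congr 1
  ext t
  rw [add_smul, mul_smul, add_assoc]

/-- **Covering version.** -/
theorem cover (hT : TanLoc) (hcov : IsCoveringMap p) {u : E → ℝ} (hu : IsPsh (n := n) p u)
    (hB : ∃ B : ℝ, ∀ y, |u y| ≤ B) {U : Set E} (hU : IsOpen U) (hUc : IsPreconnected U)
    {A : Set X} (hA : NullSet n A)
    (hc : ∀ y ∈ U, p y ∉ A → Submodule.span ℂ (velocities n (p y)) = ⊤) {y : E} (hy : y ∈ U)
    {y' : E} (hy' : y' ∈ U) : u y = u y' := by
  obtain ⟨B, hB⟩ := hB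
  refine const_of_loc hUc (fun y hy => ?_) hy hy'
  obtain ⟨h, hyh, hp⟩ := hcov.isLocalHomeomorph y
  set e : Chart n X := chartAt (Cm n) (p y) with he
  have hat : At e (p y) := ⟨chart_mem_atlas _ _, mem_chart_source _ _⟩
  set c : Cm n := e (p y) with hcdef
  have hWo : IsOpen (h.target ∩ h.symm ⁻¹' U) := h.isOpen_inter_preimage_symm hU
  have hGo : IsOpen (e.target ∩ e.symm ⁻¹' (h.target ∩ h.symm ⁻¹' U)) :=
    e.isOpen_inter_preimage_symm hWo
  have hsc : h.symm (e.symm c) = y := by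
    rw [hcdef, e.left_inv hat.2, hp, h.left_inv hyh]
  have hcG : c ∈ e.target ∩ e.symm ⁻¹' (h.target ∩ h.symm ⁻¹' U) := by
    refine ⟨hat.mem_target, ?_⟩
    rw [mem_preimage, hcdef, e.left_inv hat.2]
    refine ⟨?_, ?_⟩
    · rw [hp]
      exact h.map_source hyh
    · rw [mem_preimage, hp, h.left_inv hyh]
      exact hy
  obtain ⟨R, hR, hball⟩ := Metric.isOpen_iff.1 hGo c hcG
  have hRC : (R : ℂ) ≠ 0 := by exact_mod_cast hR.ne'
  have hin : ∀ z ∈ ball (0 : Cm n) 1, c + (R : ℂ) • z ∈ ball c R := by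
    intro z hz
    rw [mem_ball, dist_zero_right] at hz
    rw [mem_ball, dist_eq_norm, add_sub_cancel_left, norm_smul, Complex.norm_real,
      Real.norm_eq_abs, abs_of_pos hR]
    nlinarith [norm_nonneg z]
  suffices hloc : ∃ r > 0, ∀ z ∈ ball (0 : Cm n) r,
      (fun z => u (h.symm (e.symm (c + (R : ℂ) • z)))) z =
        (fun z => u (h.symm (e.symm (c + (R : ℂ) • z)))) 0 by
    obtain ⟨r, hr, hconst⟩ := hloc
    have hcy : ContinuousAt (fun y' => e (p y')) y :=
      ContinuousAt.comp (f := p) (g := e) (e.continuousAt hat.2) hcov.continuous.continuousAt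
    filter_upwards [h.open_source.mem_nhds hyh,
      hcy.eventually_mem (ball_mem_nhds _ (by positivity : 0 < R * r)),
      hcov.continuous.continuousAt.eventually_mem (e.open_source.mem_nhds hat.2)] with y' h1 h2 h3
    have h4 := hconst ((R : ℂ)⁻¹ • (e (p y') - c)) (by
      rw [mem_ball, dist_zero_right, norm_smul, norm_inv, Complex.norm_real, Real.norm_eq_abs,
        abs_of_pos hR]
      rw [mem_ball, dist_eq_norm] at h2
      rw [inv_mul_lt_iff₀ hR]
      exact h2)
    simp only [smul_zero, add_zero, smul_smul, mul_inv_cancel₀ hRC, one_smul] at h4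
    rw [add_sub_cancel, hsc, e.left_inv h3, hp, h.left_inv h1] at h4
    exact h4
  refine hT n (fun z => u (h.symm (e.symm (c + (R : ℂ) • z)))) ⟨B, fun z => hB _⟩ ?_ ?_ ?_
  · -- usc
    intro z hz
    have h1 := hball (hin z hz)
    refine UpperSemicontinuousAt.comp (f := u)
      (g := fun z : Cm n => h.symm (e.symm (c + (R : ℂ) • z))) (hu.usc _) ?_
    refine ContinuousAt.comp (f := fun z : Cm n => e.symm (c + (R : ℂ) • z)) (g := h.symm)
      (h.continuousAt_symm h1.2.1) ?_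
    exact ContinuousAt.comp (f := fun z : Cm n => c + (R : ℂ) • z) (g := e.symm)
      (e.continuousAt_symm h1.1) (by fun_prop)
  · -- sub-mean inequality on all discs
    intro c' b ρ hρ hdisc
    have hOo : IsOpen {ζ : ℂ | c' + ζ • b ∈ ball (0 : Cm n) 1} :=
      isOpen_ball.preimage (by fun_prop)
    obtain ⟨δ, hδ, hthick⟩ := (isCompact_closedBall (0 : ℂ) ρ).exists_thickening_subset_open hOo
      hdisc
    rw [thickening_closedBall hδ hρ.le] at hthick
    set ρ' : ℝ := δ + ρ with hρ'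
    have hρ'0 : 0 < ρ' := by linarith
    have h1 := H287.AE.ae1a (fun t : ℂ => u (h.symm (e.symm ((c + (R : ℂ) • c') +
      t • ((R : ℂ) * (ρ' : ℂ)) • b)))) (sub_affine hu hB hp hat.1 (by
        intro t ht
        have h2 : t * (ρ' : ℂ) ∈ ball (0 : ℂ) ρ' := by
          rw [mem_ball, dist_zero_right] at ht ⊢
          rw [norm_mul, Complex.norm_real, Real.norm_eq_abs, abs_of_pos hρ'0]
          nlinarith
        have h3 := hball (hin _ (hthick h2))
        have h4 : c + (R : ℂ) • c' + t • ((R : ℂ) * (ρ' : ℂ)) • b =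
            c + (R : ℂ) • (c' + (t * (ρ' : ℂ)) • b) := by
          rw [smul_add, smul_smul, smul_smul, add_assoc]
          congr 3
          ring_nf
        rw [h4]
        exact ⟨h3.1, h3.2.1⟩)) 0 (ρ / ρ') (div_pos hρ hρ'0) (by
          refine closedBall_subset_ball ?_
          rw [div_lt_one hρ'0]
          linarith)
    have h2 := circleAverage_scale (fun ζ : ℂ => u (h.symm (e.symm (c + (R : ℂ) • (c' + ζ • b)))))
      0 (κ := ρ') (ρ := ρ) hρ'0.ne'
    simp only [zero_smul, add_zero] at h1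
    refine h1.trans_eq ?_
    rw [h2]
    congr 1
    ext t
    rw [smul_add, smul_smul, smul_smul, add_assoc, zero_add]
    congr 5
    ring_nf
  · -- velocities
    have hN := hA e hat.1
    set N : Set (Cm n) := e '' (A ∩ e.source) with hNdef
    have hN' : ∀ᵐ x : Cm n, c + (R : ℂ) • x ∉ N := by
      rw [ae_iff]
      have h3 : {x : Cm n | ¬ c + (R : ℂ) • x ∉ N} =
          (LinearEquiv.smulOfNeZero ℂ (Cm n) (R : ℂ) hRC).restrictScalars ℝ ⁻¹'
            ((fun z => c + z) ⁻¹' N) := by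
        ext x
        simp
      rw [h3]
      have h4 := Measure.addHaar_preimage_linearEquiv (volume : Measure (Cm n))
        ((LinearEquiv.smulOfNeZero ℂ (Cm n) (R : ℂ) hRC).restrictScalars ℝ) ((fun z => c + z) ⁻¹' N)
      rw [measure_preimage_add, hN, mul_zero] at h4
      exact h4
    filter_upwards [hN'] with x hx hx1
    have hG := hball (hin x hx1)
    set q : X := e.symm (c + (R : ℂ) • x) with hq
    set yx : E := h.symm q with hyx
    have hpy : p yx = q := by rw [hp, hyx]; exact h.right_inv hG.2.1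
    have hyxU : yx ∈ U := hG.2.2
    have hqe : e q = c + (R : ℂ) • x := e.right_inv hG.1
    have hqs : q ∈ e.source := e.map_target hG.1
    have hqA : q ∉ A := fun hmem => hx ⟨q, ⟨hmem, hqs⟩, hqe⟩
    have hAtq : At e q := ⟨hat.1, hqs⟩
    have hspan := span_change hAtq (by
      have := hc yx hyxU (by rw [hpy]; exact hqA)
      rwa [hpy] at this)
    refine ⟨{a : Cm n | ∃ f : ℂ → X, ContMDiff 𝓘(ℂ) 𝓘(ℂ, Cm n) ω f ∧ f 0 = q ∧
      (R : ℂ) • a = deriv (fun s => e (f s)) 0}, ?_, ?_⟩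
    · rw [eq_top_iff, ← hspan, Submodule.span_le]
      rintro v' ⟨f, hf, h0, rfl⟩
      have h5 : deriv (fun s => e (f s)) 0 = (R : ℂ) • ((R : ℂ)⁻¹ • deriv (fun s => e (f s)) 0) := by
        rw [smul_smul, mul_inv_cancel₀ hRC, one_smul]
      rw [h5]
      exact Submodule.smul_mem _ _ (Submodule.subset_span ⟨f, hf, h0, h5.symm⟩)
    · rintro a ⟨f, hf, h0, ha⟩
      obtain ⟨F, ⟨hF0, hF⟩, -⟩ := hcov.existsUnique_continuousMap_lifts
        (⟨f, hf.continuous⟩ : C(ℂ, X)) 0 yx (hpy.trans h0.symm)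
      have hpF : ∀ z, p (F z) = f z := fun z => congrFun hF z
      have hd1 : DifferentiableAt ℂ (fun s => e (f s)) 0 :=
        (contDiffAt_chart (hf 0) (by rw [h0]; exact hAtq)).differentiableAt (by simp)
      refine ⟨fun t => (R : ℂ)⁻¹ • (e (f t) - c), ?_, ?_, ?_⟩
      · have h5 := (hd1.hasDerivAt.sub_const c).const_smul ((R : ℂ)⁻¹)
        rw [← ha, smul_smul, inv_mul_cancel₀ hRC, one_smul] at h5
        exact h5
      · show (R : ℂ)⁻¹ • (e (f 0) - c) = x
        rw [h0, hqe, add_sub_cancel_left, smul_smul, inv_mul_cancel₀ hRC, one_smul]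
      · have h6 : ∀ᶠ t in 𝓝 (0 : ℂ), F t ∈ h.source :=
          F.continuous.continuousAt.eventually_mem (h.open_source.mem_nhds (by
            rw [hF0]; exact h.map_target hG.2.1))
        have h7 : ∀ᶠ t in 𝓝 (0 : ℂ), f t ∈ e.source :=
          hf.continuous.continuousAt.eventually_mem (e.open_source.mem_nhds (by
            rw [h0]; exact hqs))
        filter_upwards [h6, h7] with t ht1 ht2
        have h8 : c + (R : ℂ) • (R : ℂ)⁻¹ • (e (f t) - c) = e (f t) := by
          rw [smul_smul, mul_inv_cancel₀ hRC, one_smul]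
          abel
        have h9 : h.symm (f t) = F t := by
          rw [← hpF t, hp, h.left_inv ht1]
        show u (h.symm (e.symm (c + (R : ℂ) • (R : ℂ)⁻¹ • (e (f t) - c)))) =
          u (h.symm (e.symm (c + (R : ℂ) • x)))
        rw [h8, e.left_inv ht2, h9, ← hq, ← hyx, ← hF0]
        exact const_of_lift g7Stmt hf F.continuous hpF hu ⟨B, hB⟩ 0 t

end

section
variable {n : ℕ} {X : Type} [TopologicalSpace X] [ChartedSpace (Cm n) X]
  [IsManifold 𝓘(ℂ, Cm n) ω X]

/-- a finite set of deck transformations which move `y0` inside one component of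
`p⁻¹ U` has subexponential growth -/
theorem coreT (hT : TanLoc) (h6 : DropX n X) (E Γ : Type) [TopologicalSpace E] [ConnectedSpace E]
    [Group Γ] [MulAction Γ E] (p : E → X) (hG : IsGalois Γ p) (U : Set X)
    (hUo : IsOpen U) (hUn : NullSet n {y ∈ U | Submodule.span ℂ (velocities n y) ≠ ⊤}) (y0 : E)
    (hy0 : p y0 ∈ U) (S : Set Γ) (hS : S.Finite)
    (hV : ∀ t ∈ S, t • y0 ∈ connectedComponentIn (p ⁻¹' U) y0) : Subexp S := by
  by_contra hexp
  have hlc : LocallyConnectedSpace E := locallyConnected (n := n) hG.cov.isLocalHomeomorph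
  have hVo : IsOpen (connectedComponentIn (p ⁻¹' U) y0) :=
    (hUo.preimage hG.cov.continuous).connectedComponentIn
  have hVp : IsPreconnected (connectedComponentIn (p ⁻¹' U) y0) :=
    isPreconnected_connectedComponentIn
  have hW : (⋂ t ∈ S, (fun y : E => t • y) ⁻¹' connectedComponentIn (p ⁻¹' U) y0) ∈ 𝓝 y0 := by
    rw [biInter_mem hS]
    exact fun t ht => (hG.cont t).continuousAt.preimage_mem_nhds (hVo.mem_nhds (hV t ht))
  obtain ⟨t, ht, u, hu, hu01, y', hy', hlt⟩ := h6 E Γ p hG S hS hexp y0 _ hW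
  have hy'V : t • y' ∈ connectedComponentIn (p ⁻¹' U) y0 := by
    have := mem_iInter₂.1 hy' t ht
    exact this
  have hb : ∃ B : ℝ, ∀ y, |u y| ≤ B :=
    ⟨1, fun y => abs_le.2 ⟨by linarith [(hu01 y).1], (hu01 y).2⟩⟩
  have hcount : ∀ y ∈ connectedComponentIn (p ⁻¹' U) y0,
      p y ∉ {y ∈ U | Submodule.span ℂ (velocities n y) ≠ ⊤} →
      Submodule.span ℂ (velocities n (p y)) = ⊤ := by
    intro y hy hyA
    have hyU : p y ∈ U := by
      have := connectedComponentIn_subset (p ⁻¹' U) y0 hy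
      exact this
    by_contra hcon
    exact hyA ⟨hyU, hcon⟩
  have hmem : y0 ∈ connectedComponentIn (p ⁻¹' U) y0 := mem_connectedComponentIn hy0
  have h9 := cover hT hG.cov hu hb hVo hVp hUn hcount hmem hy'V
  linarith

end

/-- growth of the image, for one manifold -/
theorem growth_imgT (hT : TanLoc) {n : ℕ} {X : Type} [TopologicalSpace X] [T2Space X]
    [CompactSpace X] [ConnectedSpace X] [ChartedSpace (Cm n) X] [IsManifold 𝓘(ℂ, Cm n) ω X]
    (h6 : DropX n X) (U : Set X) (x : X) (hx : x ∈ U) (hUo : IsOpen U)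
    (hUn : NullSet n {y ∈ U | Submodule.span ℂ (velocities n y) ≠ ⊤}) :
    SubexpGrowth (img U x hx) := by
  obtain ⟨N, hN⟩ := Vale.Agent.P300.H673.exists_openEmbedding (Cm n) X
  obtain ⟨Y, Γ, tY, gΓ, aΓ, π, hsc, ht2, hcont, hfree, hcov, hsurj, horb⟩ :=
    Vale.Agent.P223.X.U.main N X hN
  have hcont' : ∀ γ : Γ, Continuous fun y : Y => γ • y := hcont
  have q := Vale.Agent.P223.R2.H968.Lift.quot π hcont hfree hcov hsurj horb
  obtain ⟨y0, rfl⟩ := hsurj x
  set e : FundamentalGroup X (π y0) ≃* Γᵐᵒᵖ :=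
    q.fundamentalGroupEquiv (⟨y0, rfl⟩ : π ⁻¹' {π y0}) with he
  have hG : IsGalois Γ (π : Y → X) := ⟨hcov, hsurj, hcont', hfree, horb⟩
  intro S hS
  set f : img U (π y0) hx →* Γᵐᵒᵖ := e.toMonoidHom.comp (img U (π y0) hx).subtype with hf
  have hfi : Function.Injective f := e.injective.comp Subtype.val_injective
  refine H622.subexp_of_image f hfi ?_
  refine subexp_op ?_
  refine coreT hT h6 Y Γ π hG U hUo hUn y0 hx _ ((hS.image _).image _) ?_
  rintro _ ⟨_, ⟨s, hs, rfl⟩, rfl⟩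
  obtain ⟨c, hcU, hc⟩ := exists_loop s.2
  have h1 : (MulOpposite.unop (f s)) • y0 =
      (q.isCoveringMap.monodromy (s : FundamentalGroup X (π y0)) ⟨y0, rfl⟩ : Y) :=
    q.unop_fundamentalGroupToMulOpposite_smul
  rw [h1, hc]
  exact mem_of_loop q.isCoveringMap c hcU

/-- The conclusion of theorem TAN. -/
def TanConcl : Prop :=
  ∀ (n : ℕ) (X : Type) [TopologicalSpace X] [T2Space X] [CompactSpace X] [ConnectedSpace X]
    [ChartedSpace (Cm n) X] [IsManifold 𝓘(ℂ, Cm n) ω X]
    (w : Chart n X → Cm n → Matrix (Fin n) (Fin n) ℂ), IsKahler w →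
    ∀ (U : Set X) (x : X) (hx : x ∈ U), IsOpen U →
    NullSet n {y ∈ U | Submodule.span ℂ (velocities n y) ≠ ⊤} → SubexpGrowth (piImage U x hx)

/-- **TAN from the local statement** -/
theorem tanConcl_of (hT : TanLoc) : TanConcl := by
  intro n X _ _ _ _ _ _ w hw U x hx hUo hUn
  exact growth_imgT hT (n := n) (fun E Γ _ _ _ _ p hG => kg6All0 n X w hw E Γ p hG) U x hx hUo hUn

end Vale.Agent.P284.H446.TAN
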